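import Vale.Agent.P098.Exact.Assemble

/-! The certificate in dimension three. -/

noncomputable section

namespace Vale.Agent.P098.Exact.D3

/-- The table: the derivative of the squared Hessian. -/
def table : List Term := [⟨2 / 5, .a1, 0, 0, 0, 0⟩]

theorem interior_table (l v : Fin 3 → ℝ) (τ : Fin 3 → Fin 3 → Fin 3 → ℝ) (a : ℝ)
    (hA : Admissible l v τ) (_ha : 0 ≤ a) : 1 / 2 ≤ Qval (3 / 5) table l v τ a 1 := by
  obtain ⟨hl, hs, hq, -, -, hr, hL, ht, hz⟩ := hA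
  have hl2 : l 2 = 0 := hl
  have z1 : ∀ k m, τ 2 k m = 0 := hz
  have z2 : ∀ k m, τ k 2 m = 0 := fun k m => by rw [hL]; exact z1 k m
  have z3 : ∀ k m, τ k m 2 = 0 := fun k m => by rw [hr]; exact z2 k m
  rw [Fin.sum_univ_three] at hs hq
  have e11 : l 1 = -l 0 := by linarith
  have h00 : l 0 ^ 2 = 1 / 2 := by
    rw [hl2, e11] at hq
    linarith [neg_sq (l 0)]
  have t0 : τ 0 1 1 = -τ 0 0 0 := by
    have := ht 0
    rw [Fin.sum_univ_three, z2] at this
    linarith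
  have t1 : τ 1 0 0 = -τ 1 1 1 := by
    have := ht 1
    rw [Fin.sum_univ_three, z2] at this
    linarith
  have s1 : τ 0 0 1 = τ 1 0 0 := by rw [hL 1 0 0, hr 0 0 1]
  have s2 : τ 0 1 0 = τ 1 0 0 := hL 0 1 0
  have s3 : τ 1 0 1 = τ 0 1 1 := hL 1 0 1
  have s4 : τ 1 1 0 = τ 0 1 1 := by rw [hr 1 1 0, hL 1 0 1]
  have hlast : Fin.last 2 = (2 : Fin 3) := rfl
  have key : Qval (3 / 5) table l v τ a 1 =
      (2 / 5 * (4 * τ 0 0 0 ^ 2 + 4 * τ 1 1 1 ^ 2) + 2 / 5 * (2 * l 0 ^ 2 + 2 * l 1 ^ 2)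
        + 2 / 5 * 0 - (1 / 2) ^ 2)
      - (2 * (2 / 5) * (1 - 3 / 5) + (3 / 5) ^ 2) *
        (4 * l 0 ^ 2 * (τ 0 0 0 ^ 2 + τ 1 1 1 ^ 2)) := by
    simp [Qval, dOmV, omV, table, Term.val, Term.dval, Term.mon, Term.dmon, Term.wt, Form.wt,
      Form.val, Form.dval, sqA, dsqA, jet0, qdir, ljet0, bord, Fin.sum_univ_three, hlast,
      hl2, e11, t0, t1, s1, s2, s3, s4, z1, z2, z3]
    ring_nf
    rw [h00]
    norm_num
    ring
  rw [key, e11]
  nlinarith [sq_nonneg (τ 0 0 0), sq_nonneg (τ 1 1 1), neg_sq (l 0)]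

theorem boundary_table (h t3 t4 : ℝ) (H : BoundaryRange 2 h t3 t4) :
    0 ≤ bVal table h t3 t4 + h ∧ 0 ≤ wVal table h t3 := by
  obtain ⟨hh, l, i0, hne, hl, hi, hsum, -, ht, -⟩ := H
  rw [Fin.sum_univ_three] at hsum ht
  have hl2 : l 2 = 0 := hl
  have key : ∀ x, x = h → t3 = (-h) ^ 3 + x ^ 3 →
      0 ≤ bVal table h t3 t4 + h ∧ 0 ≤ wVal table h t3 := by
    intro x hx h3
    subst hx
    have : t3 = 0 := by rw [h3]; ring
    subst this
    simp only [bVal, wVal, table, List.map_cons, List.map_nil, List.sum_cons, List.sum_nil,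
      Term.bMon, bForm, wForm]
    norm_num
    linarith
  rw [hl2] at hsum ht
  fin_cases i0
  · simp only [Fin.zero_eta, Fin.isValue] at hi
    exact key (l 1) (by linarith) (by rw [ht, hi]; ring)
  · simp only [Fin.mk_one, Fin.isValue] at hi
    exact key (l 0) (by linarith) (by rw [ht, hi]; ring)
  · exact absurd rfl hne

/-- The certificate in dimension three. -/
def cert : Cert 3 :=
  mkCert (3 / 5) table (by norm_num) (by norm_num) (1 / 2) (by norm_num) interior_table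
    boundary_table

end Vale.Agent.P098.Exact.D3
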